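import Vale.Agent.P354CB.Ez
import Vale.Agent.P354XJ.Tf

/-!
The slice of a development is acausal.
-/

open scoped ContDiff
open Set Filter Topology Metric

namespace Vale.Agent.P354CB72

open Vale.Agent.P354n
open Vale.Agent.P354I (X Dat)
open Vale.Agent.P354J (PDy)
open Vale.Agent.P354XJ
open Vale.Agent.P354YC (IndAt Sp)
open Vale.Agent.P354CB

/-- Coordinates adapted to a spacelike slice. -/
theorem height {B : R4 → R4 → ℝ} {J : X → R4} {y : X} {n : R4} (hJ : ContDiffAt ℝ ∞ J y)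
    (S : Sp B (fderiv ℝ J y) n) (n1 : B n n = -1) :
    ∃ (π : R4 → X) (ρ : R4 → ℝ), Tendsto π (𝓝 (J y)) (𝓝 y) ∧ ContDiffAt ℝ 1 ρ (J y) ∧
      ρ (J y) = 0 ∧ (∀ v, ∃ u, v = fderiv ℝ J y u + fderiv ℝ ρ (J y) v • n) ∧
      ∀ᶠ z in 𝓝 (J y), J (π z) + ρ z • n = z := by
  set A := (fderiv ℝ J y).coprod ((ContinuousLinearMap.id ℝ ℝ).smulRight n)
  have sj : Function.Surjective A := S.surj (by rw [n1]; norm_num)
  have ij : Function.Injective A :=
    (LinearMap.injective_iff_surjective_of_finrank_eq_finrank (f := A.toLinearMap) (by simp)).2 sj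
  let E : (X × ℝ) ≃L[ℝ] R4 := ContinuousLinearEquiv.ofBijective A
    (LinearMap.ker_eq_bot.2 ij) (LinearMap.range_eq_top.2 sj)
  have c : ContDiffAt ℝ 1 (fun x : X × ℝ => J x.1 + x.2 • n) (y, 0) :=
    ((hJ.of_le (by simp)).comp (y, (0 : ℝ)) contDiffAt_fst).add (contDiffAt_snd.smul contDiffAt_const)
  have dv : HasFDerivAt (fun x : X × ℝ => J x.1 + x.2 • n) (E : (X × ℝ) →L[ℝ] R4) (y, 0) :=
    (((hJ.differentiableAt (by simp)).hasFDerivAt.comp (y, (0 : ℝ)) hasFDerivAt_fst).add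
      (hasFDerivAt_snd.smul_const n)).congr_fderiv (by ext <;> simp [E, A])
  have st := c.hasStrictFDerivAt' dv one_ne_zero
  have h1 := c.to_localInverse dv one_ne_zero
  have h2 := c.localInverse_apply_image dv one_ne_zero
  have h3 := st.eventually_right_inverse
  have h4 := st.localInverse_tendsto
  have h5 := st.to_localInverse.hasFDerivAt
  simp only [zero_smul, add_zero] at h1 h2 h3 h4 h5
  refine ⟨fun z => (c.localInverse dv one_ne_zero z).1, fun z => (c.localInverse dv one_ne_zero z).2,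
    (continuous_fst.tendsto _).comp h4, h1.snd, congrArg Prod.snd h2, fun v => ⟨(E.symm v).1, ?_⟩, h3⟩
  have h6 : HasFDerivAt (fun z => (c.localInverse dv one_ne_zero z).2) _ (J y) := h5.snd
  rw [h6.fderiv]
  exact (E.apply_symm_apply v).symm

variable {N : Spc} {d : Dat} {O : Set X} {j : X → N.pt} {y : X} {e : N.Chart}

/-- A time function whose negative part lies in the past of the slice. -/
theorem side (B : B0) (hd : PDy d) (h : Dev d O N j) (hy : y ∈ O) (he : On e (j y)) :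
    ∃ ρ : R4 → ℝ, Tm e ρ (co e (j y)) ∧ ρ (co e (j y)) = 0 ∧
      ∀ᶠ z in 𝓝 (co e (j y)), ρ z < 0 → inv e z ∈ Pa N (j '' O) := by
  have hL := h.gh.st.lor e
  have m := co_mem he
  obtain ⟨sJ, I⟩ := h.ind y hy e he
  obtain ⟨n, n1, n2, S⟩ := I.sp hL m (hd.2 y (h.nz hy)).1
  obtain ⟨π, ρ, a1, a2, a3, a4, a5⟩ := height sJ S n1
  refine ⟨ρ, tm_of_levels h.gh.st.sp m a2 ?_ fun v v0 hv => ?_, a3, ?_⟩
  · obtain ⟨u, hu⟩ := a4 (N.X e (co e (j y)))
    rw [hu, S.bil.add_right, S.symm n, S.nor, S.bil.smul_right, n1] at n2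
    linarith
  · obtain ⟨u, hu⟩ := a4 v
    rw [hv, zero_smul, add_zero] at hu
    exact hu ▸ S.pos u fun k => v0 (by rw [hu, k, map_zero])
  have c := fun {b : R4 → R4} (hb : ContinuousAt b (co e (j y)))
      (o : N.g e (co e (j y)) n (b (co e (j y))) < 0) =>
    (g_cont h.gh.st.sp (p := id) (a := fun _ => n) (b := b) m continuousAt_id continuousAt_const
      hb).eventually (gt_mem_nhds o)
  obtain ⟨r, r0, hr⟩ := Metric.eventually_nhds_iff_ball.1 (Eventually.and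
    ((isOpen_tgt e).mem_nhds m) ((c continuousAt_const (by rw [n1]; norm_num)).and
      (c (hL.cont.continuousAt (hL.isOpen.mem_nhds m)) n2)))
  filter_upwards [a5, ball_mem_nhds _ r0, a1.eventually (h.op.mem_nhds hy),
    a1.eventually ((h.cont hy).eventually (on_nhds he)),
    a1.eventually (sJ.continuousAt (ball_mem_nhds _ r0))] with z z1 z2 z3 z4 z5 z6
  have q : z + (-ρ z) • n = co e (j (π z)) := by
    rw [neg_smul, ← sub_eq_add_neg, sub_eq_iff_eq_add, z1]
  refine ⟨_, ⟨π z, z3, rfl⟩, _, B.seg h.gh.st (e := e) (z := z) (v := (-ρ z) • n) fun t ht => ?_,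
    by simp, by simp only [one_smul, q, inv_co z4]⟩
  obtain ⟨u1, u2, u3⟩ := hr _ ((convex_ball _ _).add_smul_mem z2 (q ▸ z5) ht)
  have b := bilin_of hL u1
  have s0 := neg_pos.2 z6
  rw [b.smul_left, b.smul_right, b.smul_left]
  exact ⟨u1, mul_neg_of_pos_of_neg s0 (mul_neg_of_pos_of_neg s0 u2), mul_neg_of_pos_of_neg s0 u3⟩

/-- Along a future curve in a chart the displacement is bounded by the time function. -/
theorem disp (B : B0) {c : ℝ → N.pt} {s t C : ℝ} {ρ : R4 → ℝ} (hst : s < t)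
    (hc : Cv N (Icc s t) c) (k : ∀ u ∈ Icc s t, On e (c u) ∧ Tm e ρ (co e (c u)) ∧
      Cb e ρ C (co e (c u))) :
    ‖co e (c t) - co e (c s)‖ ≤ C * ρ (co e (c t)) - C * ρ (co e (c s)) := by
  obtain ⟨w, -, hw⟩ := B.vel hc (uniqueDiffOn_Icc hst) fun u hu => (k u hu).1
  have d : ∀ u ∈ Icc s t, HasDerivWithinAt (fun u => C * ρ (co e (c u)) - C * ρ (co e (c s)))
      (C * fderiv ℝ ρ (co e (c u)) (w u)) (Icc s t) u := fun u hu =>
    ((((k u hu).2.1.1.differentiableAt one_ne_zero).hasFDerivAt.comp_hasDerivWithinAt u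
      (hw u hu).1).const_mul C).sub_const _
  exact image_norm_le_of_norm_deriv_right_le_deriv_boundary'
    (f := fun u => co e (c u) - co e (c s)) (f' := w)
    (fun u hu => ((hw u hu).1.sub_const _).continuousWithinAt)
    (fun u hu => ((hw u (Ico_subset_Icc_self hu)).1.sub_const _).mono_of_mem_nhdsWithin
      (Icc_mem_nhdsGE_of_mem hu)) (by simp) (fun u hu => (d u hu).continuousWithinAt)
    (fun u hu => (d u (Ico_subset_Icc_self hu)).mono_of_mem_nhdsWithin (Icc_mem_nhdsGE_of_mem hu))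
    (fun u hu => (k u (Ico_subset_Icc_self hu)).2.2 _ (hw u (Ico_subset_Icc_self hu)).2.1.le
      (hw u (Ico_subset_Icc_self hu)).2.2.le) ⟨hst.le, le_rfl⟩

/-- **AC.** -/
theorem ac (L : L1) (G : GONE) : AC := by
  intro d O N j hd h
  refine ⟨h.gh, ?_⟩
  rintro s hs _ ⟨y, hy, rfl⟩ le
  by_contra ne
  have st := h.gh.st
  obtain ⟨e, he⟩ := N.cover (j y)
  replace he : On e (j y) := he
  have m := co_mem he
  obtain ⟨ρ, t1, t2, t3⟩ := side L.b hd h hy he
  obtain ⟨C, C0, hC⟩ := t1.cb st.sp m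
  have i : ∀ᶠ z in 𝓝 (co e (j y)), inv e z ≠ s :=
    (inv_cont m).eventually_ne (by rw [inv_co he]; exact Ne.symm ne)
  obtain ⟨r, r0, hr⟩ := Metric.nhds_basis_closedBall.eventually_iff.1 (Eventually.and
    ((isOpen_tgt e).mem_nhds m) ((t1.ev st.sp m).and (hC.and (t3.and i))))
  have op : IsOpen {x | On e x ∧ co e x ∈ ball (co e (j y)) r} :=
    (N.toE e).isOpen_inter_preimage isOpen_ball
  have sm : ∀ᶠ z in 𝓝 (co e (j y)), ‖z - co e (j y)‖ + C * ρ z < r := by
    have c : ContinuousAt (fun z => ‖z - co e (j y)‖ + C * ρ z) (co e (j y)) :=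
      (continuousAt_id.sub continuousAt_const).norm.add (continuousAt_const.mul t1.1.continuousAt)
    exact c.eventually (gt_mem_nhds (by simpa [t2] using r0))
  obtain ⟨b, ⟨b1, b2⟩, b3⟩ := mem_closure_iff_nhds.1 (L.b.nearF st (j y)) _
    (inter_mem (op.mem_nhds ⟨he, mem_ball_self r0⟩) ((co_cont he).eventually sm))
  obtain ⟨c, c1, c2, rfl⟩ := le.1 b b3
  obtain ⟨τ, τ1, τ2, τ3⟩ := last_time op.isClosed_compl c1.1 zero_le_one
    (fun k => (hr (ball_subset_closedBall k.2)).2.2.2.2 ((inv_co k.1).trans c2)) (not_not.2 b1)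
  have cK : IsCompact (inv e '' closedBall (co e (j y)) r) :=
    (isCompact_closedBall _ _).image_of_continuousOn fun z hz =>
      (inv_cont (hr hz).1).continuousWithinAt
  have sub : Icc τ 1 ⊆ Icc 0 1 := Icc_subset_Icc_left τ1.1
  have k : ∀ u ∈ Icc τ 1, On e (c u) ∧ co e (c u) ∈ closedBall (co e (j y)) r := fun u hu => by
    have k0 : ∀ u ∈ Ioc τ 1, On e (c u) ∧ co e (c u) ∈ closedBall (co e (j y)) r := fun u hu =>
      (not_not.1 (τ3 u hu)).imp id fun a => ball_subset_closedBall a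
    rcases hu.1.eq_or_lt with rfl | l
    · have : (𝓝[Ioc τ 1] τ).NeBot := left_nhdsWithin_Ioc_neBot τ1.2
      obtain ⟨z, z1, z2⟩ := cK.isClosed.mem_of_tendsto
        ((c1.1 τ (sub hu)).mono (Ioc_subset_Icc_self.trans sub))
        (mem_of_superset self_mem_nhdsWithin fun v hv => ⟨_, (k0 v hv).2, inv_co (k0 v hv).1⟩)
      rw [← z2, co_inv (hr z1).1]
      exact ⟨inv_mem (hr z1).1, z1⟩
    · exact k0 u ⟨l, hu.2⟩
  have k1 := k τ ⟨le_rfl, τ1.2.le⟩
  have d1 := disp L.b τ1.2 (L.b.mono c1 sub (uniqueDiffOn_Icc τ1.2)) fun u hu =>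
    ⟨(k u hu).1, (hr (k u hu).2).2.1, (hr (k u hu).2).2.2.1⟩
  have d2 : r ≤ ‖co e (c τ) - co e (j y)‖ := not_lt.1 fun a =>
    op.isClosed_compl.frontier_subset τ2 ⟨k1.1, mem_ball_iff_norm.2 a⟩
  have d3 := norm_sub_le_norm_sub_add_norm_sub (co e (c τ)) (co e (c 1)) (co e (j y))
  rw [norm_sub_rev (co e (c τ)) (co e (c 1))] at d3
  replace b2 : ‖co e (c 1) - co e (j y)‖ + C * ρ (co e (c 1)) < r := b2
  have pa := (hr k1.2).2.2.2.1 (neg_of_mul_neg_left (by linarith) C0.le)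
  rw [inv_co k1.1] at pa
  refine (L1.s_fu (G N _ h.gh) hs).2 ?_
  rcases τ1.1.eq_or_lt with l | l
  · rwa [← l, c2] at pa
  · exact L.pa_dn st pa (c2 ▸ L.b.ll_cv st c1 (Icc_subset_Icc_right τ1.2.le) l)

end Vale.Agent.P354CB72
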