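import Vale.Agent.P354CB.Ez

/-!
A common development with corresponding boundary points can be enlarged.
-/

open scoped ContDiff
open Set Filter Topology Metric

namespace Vale.Agent.P354CB72

open Vale.Agent.P354n
open Vale.Agent.P354I (X)
open Vale.Agent.P354XJ
open Vale.Agent.P354CB

/-- **KEY0.** -/
theorem key0 (Z : L0) (a0 : KA0) (a1 : KA1) (a2 : KA2) (kt : KT) (kt2 : KT2) (kh : KH) (kj : KJ)
    (ks : KS) : KEY0 := by
  intro M N S S' U ψ φ P p p' hp pU pP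
  have hM := P.gM.st
  have hN := P.gN.st
  have L := Z.l1
  have G := Z.l2.g1 M S P.gM.toGH0
  have lm : ∀ x ∈ U, LM ψ x := fun x hx => (P.lm x hx).1
  obtain ⟨q, q', hq, qU, qF, mn⟩ := a1 M N S S' U ψ φ P p p' hp pU
    (((G.tri p).resolve_left fun k => pU (a0 M N S S' U ψ φ P p p' hp k)).resolve_right pP)
  have tq := a2 M N S S' U ψ φ P q q' hq qF
  obtain ⟨e, he⟩ := M.cover q
  obtain ⟨e', he'⟩ := N.cover q'
  replace he : On e q := he
  replace he' : On e' q' := he'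
  obtain ⟨r', L', c', nb'⟩ := L.nb N hN e' _ (co_mem he')
  obtain ⟨V, V1, V2, V3⟩ := mem_nhds_iff.1 (inter_mem ((L.opFu hM S).mem_nhds qF)
    (eventually_nhdsWithin_iff.1 (tq.eventually ((on_nhds he').and
      ((co_cont he').eventually (closedBall_mem_nhds _ nb'.r0))))))
  have dn : ∀ x ∈ U, ∀ w ∈ V, LL M w x → w ∈ U := fun x hx w hw k =>
    P.hU.dn x hx w k (L.fu_pa hM G (V1 hw).1)
  obtain ⟨r0, L0, c0, nb0⟩ := L.nb M hM e _ (co_mem he)
  obtain ⟨r, ⟨r1, r2⟩, r3⟩ := ((Metric.nhds_basis_closedBall (x := co e q)).restrict_subset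
    (closedBall_mem_nhds _ nb0.r0)).eventually_iff.1
    ((inv_cont (co_mem he)).eventually (p := (· ∈ V)) (V2.mem_nhds (by rwa [inv_co he])))
  have nb := nb0.mono (lt_min r1 nb0.r0) (min_le_right r r0)
  have rV : ∀ z ∈ closedBall (co e q) (min r r0), inv e z ∈ V := fun z hz =>
    r3 (closedBall_subset_closedBall (min_le_left _ _) hz)
  have ci : ContinuousOn (inv e) (tgt e) := fun z hz => (inv_cont hz).continuousWithinAt
  obtain ⟨z, z1, z2, f, f1, f2, f3, f4⟩ := kt M hM e _ _ _ _ _ nb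
    (closedBall (co e q) (min r r0) ∩ inv e ⁻¹' {x | x ∉ Pa M S ∧ Le M x q}) (tgt e ∩ inv e ⁻¹' U)
    ((ci.mono nb.sub).preimage_isClosed_of_isClosed isClosed_closedBall
      ((Z.l2.g2 M S P.gM.toGH0).cpt q).isClosed)
    (ci.isOpen_inter_preimage (isOpen_tgt e) P.hU.op)
    ⟨mem_closedBall_self nb.r0.le, by
      rw [mem_preimage, inv_co he]
      exact ⟨L.fu_pa hM G qF, Le.rfl⟩⟩
    (fun k => qU (inv_co he ▸ k.2))
    (fun z hz hb ne => ⟨nb.sub hb, mn _ hz.2.2 hz.2.1 fun k => ne (by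
      rw [← k, co_inv (nb.sub hb)])⟩)
    (fun z hz hb a g1 g2 => by
      have t : Tendsto (fun s : ℝ => z - s • a) (𝓝[>] 0) (𝓝 z) :=
        tendsto_nhdsWithin_of_tendsto_nhds
          ((by fun_prop : Continuous fun s : ℝ => z - s • a).tendsto' 0 z (by simp))
      filter_upwards [L.b.ray hM (nb.sub hz.1) g1 g2, t.eventually (isOpen_ball.mem_nhds hb)]
        with s s1 s2
      have s3 := ball_subset_closedBall s2
      exact ⟨s3, L.fu_pa hM G (V1 (rV _ s3)).1, (L.le hM s1.1).trans hz.2.2⟩)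
  have zb := ball_subset_closedBall z1
  have zt := nb.sub zb
  obtain ⟨y, y0⟩ := exists_ne (0 : X)
  obtain ⟨J, J1, rfl, J3, J4⟩ := kt2 M hM e z zt f f1 f3 y
  have tJ : Tendsto J (𝓝[≠] y) (𝓝 (J y)) := J1.continuous.continuousWithinAt
  have ti : Tendsto (fun x => inv e (J x)) (𝓝[≠] y) (𝓝 (inv e (J y))) := (inv_cont zt).tendsto.comp tJ
  have inU : ∀ᶠ x in 𝓝[≠] y, inv e (J x) ∈ U :=
    (J4.and (tJ.eventually f4)).mono fun x k => (k.2 k.1).2
  have nV := V2.mem_nhds (rV _ zb)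
  obtain ⟨C, hC⟩ := kj M N hM hN U ψ P.hU.op lm e' _ _ _ _ _ nb' _ (mem_closure_of_tendsto ti inU)
    V nV (fun x a b => (V1 b).2 a) dn e (inv_mem zt)
  rw [co_inv zt] at hC
  obtain ⟨χ, χ1, χ2⟩ := ks M N hM hN U ψ P.hU.op lm e e' J y _ C y0 J1 zt J3
    (isCompact_closedBall _ _) nb'.sub (by
      filter_upwards [inU, ti.eventually nV, tJ.eventually hC] with x x1 x2 x3
      exact ⟨x1, ((V1 x2).2 x1).1, ((V1 x2).2 x1).2, x3 x1⟩)
  obtain ⟨D, D1, D2, D3, D4, D5⟩ := kh M hM e _ zt f f1 f2 f3 U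
    (f4.mono fun x k l => (k l).2) _ (inter_mem nV χ1) fun x hx w hw k => dn x hx w hw.1 k
  have DF : D ⊆ Fu M S := fun x hx => (V1 (D1 hx).1).1
  obtain ⟨x, x1, x2, x3⟩ := (inU.and ((ti.eventually (D2.mem_nhds D3)).and χ2)).exists
  refine ⟨D, χ, D2, ⟨P.hU.op.union D2, ?_, ?_⟩, DF, fun k => z2 ⟨zt, k D3⟩, fun x hx => (D1 hx).2,
    Z.k2.rig hM hN (D2.inter P.hU.op) (fun x hx => ⟨(D1 hx.1).2, lm x hx.2⟩) Subset.rfl D4
      ⟨x2, x1⟩ x3⟩
  · rintro x (hx | hx) w k n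
    · exact Or.inl (P.hU.dn x hx w k n)
    · rcases D5 x hx w k with a | a | ⟨u, a, b⟩
      exacts [Or.inr a, Or.inl a, Or.inl (P.hU.dn u a w b n)]
  · rintro x (hx | hx) w k n
    · exact Or.inl (P.hU.up x hx w k n)
    · exact absurd (L.fu_up hM (DF hx) k) n

end Vale.Agent.P354CB72
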